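import Mathlib

/-!
P054 (distinct distances in higher dimensions): a special class. A finite set of `n` points in
`d`-dimensional Euclidean space that is covered by `m` lines determines at least
`(n - 1) / (2 m)` distinct distances, already from any single point of the set.
-/

namespace Vale.Agent.Results.P054.A_FewLines

open Finset

/-- Three distinct points of a collinear set are not equidistant from a point. -/
private theorem line_fiber {E : Type} [NormedAddCommGroup E] [InnerProductSpace ℝ E]
    {S : Set E} (hS : Collinear ℝ S) (x : E) (r : ℝ) {y1 y2 y3 : E}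
    (h1 : y1 ∈ S) (h2 : y2 ∈ S) (h3 : y3 ∈ S) (d1 : dist y1 x = r) (d2 : dist y2 x = r)
    (d3 : dist y3 x = r) (n12 : y1 ≠ y2) (n13 : y1 ≠ y3) (n23 : y2 ≠ y3) : False := by
  have hcos : EuclideanGeometry.Cospherical ({y1, y2, y3} : Set E) := by
    refine ⟨x, r, ?_⟩
    intro p hp
    rcases hp with rfl | rfl | rfl
    · exact d1
    · exact d2
    · exact d3
  have hai := hcos.affineIndependent_of_ne n12 n13 n23
  have hcol : Collinear ℝ ({y1, y2, y3} : Set E) := by
    apply hS.subset
    intro p hp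
    rcases hp with rfl | rfl | rfl
    · exact h1
    · exact h2
    · exact h3
  exact (affineIndependent_iff_not_collinear_set.1 hai) hcol

/-- A finset in which no three distinct elements exist has at most two elements. -/
private theorem card_le_two_of {α : Type} [DecidableEq α] (s : Finset α)
    (h : ∀ y1 ∈ s, ∀ y2 ∈ s, ∀ y3 ∈ s, y1 ≠ y2 → y1 ≠ y3 → y2 ≠ y3 → False) : s.card ≤ 2 := by
  by_contra hc
  obtain ⟨y1, y2, y3, m1, m2, m3, n12, n13, n23⟩ := Finset.two_lt_card_iff.1 (not_le.1 hc)
  exact h y1 m1 y2 m2 y3 m3 n12 n13 n23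

/-- Pinned version: from every point of the set. -/
private theorem pinned {E : Type} [NormedAddCommGroup E] [InnerProductSpace ℝ E]
    [DecidableEq E] (P : Finset E) (m : ℕ) (L : Fin m → Set E) (hL : ∀ i, Collinear ℝ (L i))
    (hcov : ∀ p ∈ P, ∃ i, p ∈ L i) (x : E) (hx : x ∈ P) :
    P.card - 1 ≤ 2 * m * ((P.erase x).image (fun y => dist y x)).card := by
  classical
  rw [← Finset.card_erase_of_mem hx]
  apply Finset.card_le_mul_card_image
  intro r _
  set F := (P.erase x).filter (fun y => dist y x = r) with hF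
  have hsub : F ⊆ Finset.univ.biUnion (fun i : Fin m => F.filter (fun y => y ∈ L i)) := by
    intro y hy
    have hyP : y ∈ P := Finset.mem_of_mem_erase (Finset.mem_filter.1 hy).1
    obtain ⟨i, hi⟩ := hcov y hyP
    exact Finset.mem_biUnion.2 ⟨i, Finset.mem_univ _, Finset.mem_filter.2 ⟨hy, hi⟩⟩
  have hline : ∀ i : Fin m, (F.filter (fun y => y ∈ L i)).card ≤ 2 := by
    intro i
    apply card_le_two_of
    intro y1 m1 y2 m2 y3 m3 n12 n13 n23
    have e1 := Finset.mem_filter.1 m1
    have e2 := Finset.mem_filter.1 m2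
    have e3 := Finset.mem_filter.1 m3
    exact line_fiber (hL i) x r e1.2 e2.2 e3.2 (Finset.mem_filter.1 e1.1).2
      (Finset.mem_filter.1 e2.1).2 (Finset.mem_filter.1 e3.1).2 n12 n13 n23
  calc F.card ≤ _ := Finset.card_le_card hsub
    _ ≤ ∑ i : Fin m, (F.filter (fun y => y ∈ L i)).card := Finset.card_biUnion_le
    _ ≤ ∑ _i : Fin m, 2 := Finset.sum_le_sum fun i _ => hline i
    _ = 2 * m := by simp; ring

theorem result :
    ∀ (d : ℕ) (P : Finset (EuclideanSpace ℝ (Fin d))) (m : ℕ)
      (L : Fin m → Set (EuclideanSpace ℝ (Fin d))),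
      (∀ i, Collinear ℝ (L i)) → (∀ p ∈ P, ∃ i, p ∈ L i) →
      (∀ x ∈ P, P.card - 1 ≤ 2 * m * ((P.erase x).image (fun y => dist y x)).card) ∧
      P.card - 1 ≤ 2 * m * (P.offDiag.image (fun pq => dist pq.1 pq.2)).card := by
  classical
  intro d P m L hL hcov
  refine ⟨fun x hx => pinned P m L hL hcov x hx, ?_⟩
  rcases P.eq_empty_or_nonempty with h | ⟨x, hx⟩
  · simp [h]
  · refine (pinned P m L hL hcov x hx).trans ?_
    apply Nat.mul_le_mul_left
    apply Finset.card_le_card
    intro r hr
    obtain ⟨y, hy, rfl⟩ := Finset.mem_image.1 hr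
    have hy' := Finset.mem_erase.1 hy
    exact Finset.mem_image.2 ⟨(y, x), Finset.mem_offDiag.2 ⟨hy'.2, hx, hy'.1⟩, rfl⟩

end Vale.Agent.Results.P054.A_FewLines
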